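import Vale.Agent.P047.Main

namespace Vale.Agent.Results.P047.SquareRootFails

open Finset Vale.Agent.P047

/-- The value `±1` of a bit. -/
def pm (b : Bool) : ℝ := if b then 1 else -1

/-- The Fourier coefficient of `f` at `S`. -/
noncomputable def fourier {n : ℕ} (f : (Fin n → Bool) → Bool) (S : Finset (Fin n)) : ℝ :=
  (∑ x : Fin n → Bool, pm (f x) * ∏ i ∈ S, pm (x i)) / 2 ^ n

open Classical in
/-- The degree of `f`. -/
noncomputable def degree {n : ℕ} (f : (Fin n → Bool) → Bool) : ℕ :=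
  (univ.filter fun S : Finset (Fin n) => fourier f S ≠ 0).sup Finset.card

lemma fourier_eq {n : ℕ} (f : (Fin n → Bool) → Bool) (S : Finset (Fin n)) :
    fourier f S = cf (re f) S / 2 ^ n := rfl

open Classical in
/-- For some `α > 1/2` and every `C`, some Boolean function of positive degree `d` has linear
coefficient sum above `C * d ^ α`; in particular above `C * √d`. -/
theorem result : ∃ α : ℝ, 1 / 2 < α ∧ ∀ C : ℝ, ∃ (n : ℕ) (f : (Fin n → Bool) → Bool),
    1 ≤ degree f ∧ C * (degree f : ℝ) ^ α < ∑ i, fourier f {i} ∧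
      C * Real.sqrt (degree f) < ∑ i, fourier f {i} := by
  obtain ⟨ι, iF, iD, f, D, hDpos, hD, h0, hpos, hgap⟩ := exists_seed
  set Q : ℝ := 2 ^ Fintype.card ι
  have hQ : 0 < Q := by positivity
  set L : ℝ := lin (re f) / Q with hL
  have hLpos : 0 < L := div_pos hpos hQ
  have hLD : (D:ℝ) < L ^ 2 := by
    rw [hL, div_pow, lt_div_iff₀ (by positivity)]; exact hgap
  have hDr : (1:ℝ) ≤ D := by exact_mod_cast hDpos
  obtain ⟨α, hα, hαL⟩ : ∃ α : ℝ, 1 / 2 < α ∧ (D:ℝ) ^ α < L := by
    have h1 : (D:ℝ) ^ (1/2 : ℝ) < L := by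
      rw [← Real.sqrt_eq_rpow, Real.sqrt_lt (by linarith) hLpos.le]; exact hLD
    have hc : ContinuousAt (fun a : ℝ => (D:ℝ) ^ a) (1/2) :=
      (Real.continuous_const_rpow (by linarith : (D:ℝ) ≠ 0)).continuousAt
    obtain ⟨ε, hε, hball⟩ := Metric.mem_nhds_iff.mp (hc.preimage_mem_nhds (Iio_mem_nhds h1))
    refine ⟨1/2 + ε/2, by linarith, hball ?_⟩
    rw [Metric.mem_ball, Real.dist_eq, add_sub_cancel_left, abs_of_pos (by linarith)]
    linarith
  refine ⟨α, hα, fun C => ?_⟩
  set C' := max C 1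
  have hp : 0 < (D:ℝ) ^ α := by positivity
  obtain ⟨k, hk⟩ := pow_unbounded_of_one_lt C' (show 1 < L / (D:ℝ) ^ α by
    rwa [one_lt_div hp])
  obtain ⟨κ, jF, jD, g, hg, -, hgl⟩ := iterate_seed hD h0 k
  set n := Fintype.card κ
  set e := Fintype.equivFin κ
  refine ⟨n, fun y => g (y ∘ e), ?_⟩
  set F : (Fin n → Bool) → Bool := fun y => g (y ∘ e)
  have hre : re F = fun y => re g (y ∘ e) := rfl
  have hsum : ∑ i, fourier F {i} = L ^ (k + 1) := by
    simp only [fourier_eq, ← sum_div]
    rw [← hgl, hre]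
    show lin _ / _ = _
    rw [lin_reindex]
  have hdeg : degree F ≤ D ^ (k + 1) := by
    refine Finset.sup_le fun S hS => ?_
    by_contra hc
    push Not at hc
    refine (mem_filter.mp hS).2 ?_
    rw [fourier_eq, hre, degLE_reindex e hg S hc, zero_div]
  have hdeg1 : 1 ≤ degree F := by
    by_contra hc
    have h : ∑ i, fourier F {i} = 0 := sum_eq_zero fun i _ => by
      by_contra hne
      have h1 := Finset.le_sup (f := Finset.card)
        (s := univ.filter fun S : Finset (Fin n) => fourier F S ≠ 0)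
        (mem_filter.mpr ⟨mem_univ ({i} : Finset (Fin n)), hne⟩)
      have : 1 ≤ degree F := by unfold degree; simpa using h1
      exact hc this
    rw [hsum] at h
    exact absurd h (pow_pos hLpos _).ne'
  have hmain : C' * (degree F : ℝ) ^ α < L ^ (k + 1) := by
    have hC' : 0 < C' := lt_of_lt_of_le one_pos (le_max_right _ _)
    have h1 : (degree F : ℝ) ^ α ≤ ((D:ℝ) ^ α) ^ (k + 1) := by
      calc (degree F : ℝ) ^ α ≤ ((D:ℝ) ^ (k + 1)) ^ α :=
            Real.rpow_le_rpow (Nat.cast_nonneg _) (by exact_mod_cast hdeg) (by linarith)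
        _ = _ := by rw [← Real.rpow_natCast_mul (by linarith), mul_comm,
              Real.rpow_mul_natCast (by linarith)]
    have h2 : C' < (L / (D:ℝ) ^ α) ^ (k + 1) :=
      lt_of_lt_of_le hk (pow_le_pow_right₀ ((one_lt_div hp).mpr hαL).le (Nat.le_succ k))
    rw [div_pow, lt_div_iff₀ (pow_pos hp _)] at h2
    exact lt_of_le_of_lt (mul_le_mul_of_nonneg_left h1 hC'.le) h2
  have hd1 : (1:ℝ) ≤ (degree F : ℝ) := by exact_mod_cast hdeg1
  refine ⟨hdeg1, ?_, ?_⟩
  · rw [hsum]
    exact lt_of_le_of_lt (mul_le_mul_of_nonneg_right (le_max_left C 1) (by positivity)) hmain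
  · rw [hsum, Real.sqrt_eq_rpow]
    refine lt_of_le_of_lt (le_trans (mul_le_mul_of_nonneg_right (le_max_left C 1) (by positivity))
      (mul_le_mul_of_nonneg_left (Real.rpow_le_rpow_of_exponent_le hd1 hα.le)
        (le_trans zero_le_one (le_max_right C 1)))) hmain

end Vale.Agent.Results.P047.SquareRootFails
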